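import Vale.Agent.P267.H823.Puiseux

/-!
# P298: an algebraic set is locally connected by analytic arcs
-/

namespace Vale.Agent.N298

open Filter Topology Set Metric MvPolynomial

variable {σ : Type} [Fintype σ]

/-- Noether normalization in terms of points. -/
theorem exists_proj (I : Ideal (MvPolynomial σ ℂ)) [I.IsPrime] :
    ∃ (m : ℕ) (G : Fin m → MvPolynomial σ ℂ), ∀ l : MvPolynomial σ ℂ,
      ∃ P : Polynomial (MvPolynomial (Fin m) ℂ), P.Monic ∧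
        (∀ z ∈ zeroLocus ℂ I, P.eval₂ (eval fun j => eval z (G j)) (eval z l) = 0) ∧
        ∀ y w, P.eval₂ (eval y) w = 0 →
          ∃ z ∈ zeroLocus ℂ I, (fun j => eval z (G j)) = y ∧ eval z l = w := by
  obtain ⟨m, g, hinj, hint⟩ := exists_integral_inj_algHom_of_fg ℂ (MvPolynomial σ ℂ ⧸ I)
  choose G hG using fun j => Ideal.Quotient.mk_surjective (I := I) (g (X j))
  refine ⟨m, G, fun l => ?_⟩
  let _ : Algebra (MvPolynomial (Fin m) ℂ) (MvPolynomial σ ℂ ⧸ I) := g.toRingHom.toAlgebra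
  have hi : Algebra.IsIntegral (MvPolynomial (Fin m) ℂ) (MvPolynomial σ ℂ ⧸ I) := ⟨hint⟩
  have hf : FaithfulSMul (MvPolynomial (Fin m) ℂ) (MvPolynomial σ ℂ ⧸ I) :=
    (faithfulSMul_iff_algebraMap_injective _ _).2 hinj
  have ha : IsIntegral (MvPolynomial (Fin m) ℂ) (Ideal.Quotient.mk I l) := hi.isIntegral _
  have hgC : ∀ c : ℂ, g (C c) = Ideal.Quotient.mk I (C c) := fun c => g.commutes c
  refine ⟨minpoly _ (Ideal.Quotient.mk I l), minpoly.monic ha, fun z hz => ?_, fun y w hw => ?_⟩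
  · let ev : (MvPolynomial σ ℂ ⧸ I) →+* ℂ := Ideal.Quotient.lift I (eval z) hz
    have h1 : ev.comp (algebraMap (MvPolynomial (Fin m) ℂ) (MvPolynomial σ ℂ ⧸ I)) =
        eval fun j => eval z (G j) := by
      refine MvPolynomial.ringHom_ext (fun c => ?_) fun j => ?_
      · show ev (g (C c)) = _
        rw [hgC, eval_C]
        exact eval_C c
      · show ev (g (X j)) = _
        rw [← hG, eval_X]
        rfl
    have h2 := Polynomial.hom_eval₂ (minpoly (MvPolynomial (Fin m) ℂ) (Ideal.Quotient.mk I l))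
      (algebraMap _ (MvPolynomial σ ℂ ⧸ I)) ev (Ideal.Quotient.mk I l)
    rw [h1, ← Polynomial.aeval_def, minpoly.aeval, map_zero] at h2
    exact h2.symm
  · let θ : Polynomial (MvPolynomial (Fin m) ℂ) →+* ℂ := Polynomial.eval₂RingHom (eval y) w
    have hθ : (RingHom.ker θ).IsMaximal := RingHom.ker_isMaximal_of_surjective θ fun c =>
      ⟨Polynomial.C (C c), by simp [θ]⟩
    let φ : Polynomial (MvPolynomial (Fin m) ℂ) →+* (MvPolynomial σ ℂ ⧸ I) :=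
      (Polynomial.aeval (Ideal.Quotient.mk I l)).toRingHom
    have hφC : ∀ r, φ (Polynomial.C r) = g r := fun r => Polynomial.aeval_C _ r
    let _ : Algebra (Polynomial (MvPolynomial (Fin m) ℂ)) (MvPolynomial σ ℂ ⧸ I) := φ.toAlgebra
    have hi2 : Algebra.IsIntegral (Polynomial (MvPolynomial (Fin m) ℂ))
        (MvPolynomial σ ℂ ⧸ I) := by
      refine ⟨RingHom.IsIntegral.tower_top Polynomial.C φ ?_⟩
      have e : φ.comp Polynomial.C = g.toRingHom := RingHom.ext hφC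
      rw [e]
      exact hint
    obtain ⟨Q, hQ, hQθ⟩ := Ideal.exists_ideal_over_maximal_of_isIntegral
      (S := MvPolynomial σ ℂ ⧸ I) (RingHom.ker θ) (by
        show RingHom.ker φ ≤ _
        rw [minpoly.ker_eval ha, Ideal.span_le, singleton_subset_iff]
        exact hw)
    obtain ⟨z, hz⟩ := eq_vanishingIdeal_singleton_of_isMaximal ℂ
      (Ideal.comap_isMaximal_of_surjective (Ideal.Quotient.mk I) Ideal.Quotient.mk_surjective
        (K := Q))
    have key : ∀ p, Ideal.Quotient.mk I p ∈ Q → eval z p = 0 := fun p hp =>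
      (mem_vanishingIdeal_singleton_iff z p).1 (hz ▸ Ideal.mem_comap.2 hp)
    have key2 : ∀ q, θ q = 0 → φ q ∈ Q := fun q hq =>
      Ideal.mem_comap.1 (hQθ ▸ RingHom.mem_ker.2 hq)
    refine ⟨z, fun p hp => key p ?_, funext fun j => ?_, ?_⟩
    · rw [Ideal.Quotient.eq_zero_iff_mem.2 hp]
      exact Q.zero_mem
    · have h1 := key2 (Polynomial.C (X j - C (y j))) (by simp [θ])
      rw [hφC, map_sub, ← hG, hgC, ← map_sub] at h1
      have h2 := key _ h1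
      rwa [map_sub, eval_C, sub_eq_zero] at h2
    · have h1 := key2 (Polynomial.X - Polynomial.C (C w)) (by simp [θ])
      have e : φ Polynomial.X = Ideal.Quotient.mk I l := Polynomial.aeval_X _
      rw [map_sub, hφC, e, hgC, ← map_sub] at h1
      have h2 := key _ h1
      rwa [map_sub, eval_C, sub_eq_zero] at h2

theorem ev_of_pow {N : ℕ} (hN : 0 < N) {s₀ : ℂ} {R : ℂ → Prop}
    (h : ∀ᶠ τ in 𝓝[≠] (0 : ℂ), R (s₀ + τ ^ N)) : ∀ᶠ s in 𝓝[≠] s₀, R s := by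
  obtain ⟨ε, hε, h1⟩ := Metric.eventually_nhds_iff.1 (eventually_nhdsWithin_iff.1 h)
  refine eventually_nhdsWithin_iff.2 (Metric.eventually_nhds_iff.2
    ⟨ε ^ N, pow_pos hε N, fun s hs hne => ?_⟩)
  obtain ⟨τ, hτ⟩ := IsAlgClosed.exists_pow_nat_eq (s - s₀) hN
  have e : s = s₀ + τ ^ N := by rw [hτ, add_sub_cancel]
  rw [e]
  refine h1 ?_ fun h0 => hne ?_
  · rw [dist_eq_norm, ← hτ, norm_pow] at hs
    rw [dist_zero_right]
    exact lt_of_pow_lt_pow_left₀ N hε.le hs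
  · have h0' : τ = 0 := h0
    rw [mem_singleton_iff, e, h0', zero_pow hN.ne', add_zero]

theorem an_eval {ι : Type} [Fintype ι] {y : ℂ → ι → ℂ} {s : ℂ} (hy : AnalyticAt ℂ y s)
    (p : MvPolynomial ι ℂ) : AnalyticAt ℂ (fun t => eval (y t) p) s :=
  AnalyticAt.aeval_mvPolynomial (analyticAt_pi_iff.1 hy) p

/-- the roots of a monic polynomial along an arc -/
theorem exists_roots {m : ℕ} {P : Polynomial (MvPolynomial (Fin m) ℂ)} (hP : P.Monic)
    {y : ℂ → Fin m → ℂ} {s₀ : ℂ} (hy : AnalyticAt ℂ y s₀) :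
    ∃ N : ℕ, 0 < N ∧ ∃ β : Fin P.natDegree → ℂ → ℂ, (∀ k, AnalyticAt ℂ (β k) 0) ∧
      ∀ᶠ τ in 𝓝 (0 : ℂ), ∀ w, P.eval₂ (eval (y (s₀ + τ ^ N))) w = 0 ↔ ∃ k, w = β k τ := by
  have h1 : AnalyticAt ℂ (fun s => y (s₀ + s)) 0 :=
    AnalyticAt.comp_of_eq (g := y) hy (analyticAt_const.add analyticAt_id) (add_zero s₀)
  obtain ⟨N, hN, β, h2, h3⟩ := P267.H823.puiseux (d := P.natDegree)
    (P := fun s => P.map (eval (y (s₀ + s)))) (fun s => ⟨hP.map _, hP.natDegree_map _⟩)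
    fun i => by
      simp only [Polynomial.coeff_map]
      exact an_eval h1 _
  refine ⟨N, hN, β, h2, h3.mono fun τ hτ w => ?_⟩
  rw [← Polynomial.eval_map, hτ, Polynomial.eval_prod, Finset.prod_eq_zero_iff]
  simp [sub_eq_zero]

section prime

variable {I : Ideal (MvPolynomial σ ℂ)} {m : ℕ} {G : Fin m → MvPolynomial σ ℂ}
  {P : σ → Polynomial (MvPolynomial (Fin m) ℂ)}

/-- selection of an arc -/
theorem exists_arc (hP : ∀ i, (P i).Monic)
    (hZ : ∀ i, ∀ z ∈ zeroLocus ℂ I, (P i).eval₂ (eval fun j => eval z (G j)) (z i) = 0)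
    {y : ℂ → Fin m → ℂ} {s₀ : ℂ} (hy : AnalyticAt ℂ y s₀) {Q : (σ → ℂ) → Prop}
    (h : ∃ᶠ s in 𝓝[≠] s₀, ∃ z ∈ zeroLocus ℂ I, (fun j => eval z (G j)) = y s ∧ Q z) :
    ∃ N : ℕ, 0 < N ∧ ∃ κ : ℂ → σ → ℂ, AnalyticAt ℂ κ 0 ∧
      (∀ᶠ τ in 𝓝 (0 : ℂ), κ τ ∈ zeroLocus ℂ I ∧
        (fun j => eval (κ τ) (G j)) = y (s₀ + τ ^ N)) ∧ ∃ᶠ τ in 𝓝[≠] (0 : ℂ), Q (κ τ) := by
  classical
  obtain ⟨N, hN, β, h1, h2⟩ := exists_roots (P := ∏ i, P i)
    (Polynomial.monic_prod_of_monic _ _ fun i _ => hP i) hy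
  have h3 : ∃ᶠ τ in 𝓝[≠] (0 : ℂ), ∃ z ∈ zeroLocus ℂ I,
      (fun j => eval z (G j)) = y (s₀ + τ ^ N) ∧ Q z := fun hc => h (ev_of_pow hN
        (R := fun s => ¬∃ z ∈ zeroLocus ℂ I, (fun j => eval z (G j)) = y s ∧ Q z) hc)
  have h4 : ∃ᶠ τ in 𝓝[≠] (0 : ℂ), ∃ k : σ → Fin (∏ i, P i).natDegree,
      (fun i => β (k i) τ) ∈ zeroLocus ℂ I ∧
      (fun j => eval (fun i => β (k i) τ) (G j)) = y (s₀ + τ ^ N) ∧ Q fun i => β (k i) τ := by
    refine (h3.and_eventually (h2.filter_mono nhdsWithin_le_nhds)).mono ?_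
    rintro τ ⟨⟨z, hz, e, hQ⟩, hτ⟩
    have h5 : ∀ i, ∃ k, z i = β k τ := fun i => (hτ (z i)).1 (by
      rw [Polynomial.eval₂_finsetProd, ← e]
      exact Finset.prod_eq_zero (Finset.mem_univ i) (hZ i z hz))
    choose k hk using h5
    have e2 : (fun i => β (k i) τ) = z := funext fun i => (hk i).symm
    exact ⟨k, e2 ▸ hz, e2 ▸ e, e2 ▸ hQ⟩
  obtain ⟨k, hk⟩ := frequently_exists.1 h4
  have hκ : AnalyticAt ℂ (fun τ i => β (k i) τ) 0 := analyticAt_pi_iff.2 fun i => h1 (k i)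
  refine ⟨N, hN, _, hκ, Eventually.and ?_ ?_, hk.mono fun τ h => h.2.2⟩
  · obtain ⟨δ, hδ, h6⟩ := Metric.eventually_nhds_iff_ball.1 hκ.eventually_analyticAt
    filter_upwards [ball_mem_nhds (0 : ℂ) hδ] with τ hτ p hp
    exact AnalyticOnNhd.eqOn_zero_of_preconnected_of_frequently_eq_zero
      (f := fun τ => eval (fun i => β (k i) τ) p) (fun t ht => an_eval (h6 t ht) p)
      (convex_ball _ _).isPreconnected (mem_ball_self hδ) (hk.mono fun τ h => h.1 p hp) hτ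
  · have h7 : AnalyticAt ℂ (fun τ : ℂ => y (s₀ + τ ^ N)) 0 :=
      AnalyticAt.comp_of_eq (g := y) hy (analyticAt_const.add (analyticAt_id.pow N))
        (by simp [hN.ne'])
    exact ((analyticAt_pi_iff.2 fun j => an_eval hκ (G j)).frequently_eq_iff_eventually_eq
      h7).1 (hk.mono fun τ h => h.2.1)

theorem finite_fibre (hP : ∀ i, (P i).Monic)
    (hZ : ∀ i, ∀ z ∈ zeroLocus ℂ I, (P i).eval₂ (eval fun j => eval z (G j)) (z i) = 0)
    (y : Fin m → ℂ) : {z | z ∈ zeroLocus ℂ I ∧ (fun j => eval z (G j)) = y}.Finite := by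
  refine (Set.Finite.pi' fun i => Polynomial.finite_setOfPred_isRoot
    ((hP i).map (eval y)).ne_zero).subset ?_
  rintro z ⟨hz, rfl⟩ i
  exact (Polynomial.eval_map _ _).trans (hZ i z hz)

end prime

omit [Fintype σ] in
theorem isClosed_zeroLocus (I : Ideal (MvPolynomial σ ℂ)) : IsClosed (zeroLocus ℂ I) := by
  have e : zeroLocus ℂ I = ⋂ p ∈ I, {z | eval z p = 0} := by
    ext z
    simp only [mem_iInter]
    rfl
  rw [e]
  exact isClosed_biInter fun p _ => isClosed_eq p.continuous_eval continuous_const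

theorem exists_sep {T : Set (σ → ℂ)} (hT : T.Finite) (q : σ → ℂ) :
    ∃ l : MvPolynomial σ ℂ, eval q l ≠ 0 ∧ ∀ z ∈ T, z ≠ q → eval z l = 0 := by
  have h : ∀ z : σ → ℂ, ∃ l : MvPolynomial σ ℂ, eval q l ≠ 0 ∧ (z ≠ q → eval z l = 0) := by
    intro z
    by_cases hz : z = q
    · exact ⟨1, by simp, fun h => absurd hz h⟩
    · obtain ⟨i, hi⟩ := Function.ne_iff.1 hz
      exact ⟨X i - C (z i), by simpa [sub_eq_zero] using hi.symm, fun _ => by simp⟩
  choose l h1 h2 using h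
  refine ⟨∏ z ∈ hT.toFinset, l z, ?_, fun z hz hne => ?_⟩
  · rw [map_prod]
    exact Finset.prod_ne_zero_iff.2 fun z _ => h1 z
  · rw [map_prod]
    exact Finset.prod_eq_zero (hT.mem_toFinset.2 hz) (h2 z hne)

variable {r : (σ → ℂ) → (σ → ℂ) → Prop} {O : Set (σ → ℂ)}

theorem eventually_rel_prime (I : Ideal (MvPolynomial σ ℂ)) [I.IsPrime] (hr : Equivalence r)
    (hO : IsOpen O) (harc : ∀ γ : ℂ → σ → ℂ, AnalyticAt ℂ γ 0 →
      (∀ᶠ τ in 𝓝 0, γ τ ∈ zeroLocus ℂ I) → γ 0 ∈ O → ∀ᶠ τ in 𝓝 0, r (γ τ) (γ 0))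
    {p : σ → ℂ} (hpO : p ∈ O) : ∀ᶠ q in 𝓝 p, q ∈ zeroLocus ℂ I → r q p := by
  by_cases hp : p ∈ zeroLocus ℂ I
  swap
  · filter_upwards [(isClosed_zeroLocus I).isOpen_compl.mem_nhds hp] with q hq h using absurd h hq
  obtain ⟨m, G, hG⟩ := exists_proj I
  choose P hP hZ hlift using hG
  have hZ' : ∀ i, ∀ z ∈ zeroLocus ℂ I,
      (P (X i)).eval₂ (eval fun j => eval z (G j)) (z i) = 0 := fun i z hz => by
    simpa using hZ (X i) z hz
  set π : (σ → ℂ) → Fin m → ℂ := fun z j => eval z (G j) with hπ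
  have hπc : Continuous π := continuous_pi fun j => (G j).continuous_eval
  have hfin := finite_fibre (fun i => hP (X i)) hZ'
  obtain ⟨ρ, hρ, hsub⟩ := Metric.nhds_basis_closedBall.mem_iff.1
    ((hO.inter ((hfin (π p)).subset (sdiff_subset (t := {p}))).isClosed.isOpen_compl).mem_nhds
      ⟨hpO, fun h => h.2 rfl⟩)
  have huniq : ∀ z ∈ zeroLocus ℂ I, π z = π p → z ∈ closedBall p ρ → z = p := fun z h1 h2 h3 => by
    by_contra hne
    exact (hsub h3).2 ⟨⟨h1, h2⟩, hne⟩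
  have hK : IsClosed (π '' (sphere p ρ ∩ zeroLocus ℂ I)) :=
    (((isCompact_sphere p ρ).inter_right (isClosed_zeroLocus I)).image hπc).isClosed
  obtain ⟨ε, hε, hεs⟩ := Metric.isOpen_iff.1 hK.isOpen_compl (π p) (by
    rintro ⟨z, ⟨h1, h2⟩, h3⟩
    rw [huniq z h2 h3 (sphere_subset_closedBall h1)] at h1
    exact hρ.ne (by simpa using h1))
  filter_upwards [ball_mem_nhds p hρ,
    hπc.continuousAt.eventually (ball_mem_nhds (π p) (half_pos hε))] with q hq1 hq2 hq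
  set y : ℂ → Fin m → ℂ := fun s => π p + s • (π q - π p) with hy
  have hya : ∀ s, AnalyticAt ℂ y s := fun s =>
    analyticAt_const.add (analyticAt_id.smul analyticAt_const)
  set R : ℂ → Prop := fun s => ∃ z ∈ zeroLocus ℂ I, π z = y s ∧ z ∈ closedBall p ρ ∧ r z q
    with hR
  have fin : ∀ (s₀ : ℂ) (N : ℕ), 0 < N → ∀ κ : ℂ → σ → ℂ, AnalyticAt ℂ κ 0 →
      (∀ᶠ τ in 𝓝 (0 : ℂ), κ τ ∈ zeroLocus ℂ I ∧ π (κ τ) = y (s₀ + τ ^ N)) → κ 0 ∈ ball p ρ →
      r (κ 0) q → ∀ᶠ s in 𝓝[≠] s₀, R s := by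
    intro s₀ N hN κ h1 h2 h3 h4
    refine ev_of_pow hN (Eventually.filter_mono nhdsWithin_le_nhds ?_)
    filter_upwards [h2, harc κ h1 (h2.mono fun _ h => h.1) (hsub (ball_subset_closedBall h3)).1,
      h1.continuousAt.eventually (isOpen_ball.mem_nhds h3)] with τ e1 e2 e3
    exact ⟨κ τ, e1.1, e1.2, ball_subset_closedBall e3, hr.trans e2 h4⟩
  have step : ∀ s₀ ∈ ball (0 : ℂ) 2, (∃ᶠ s in 𝓝[≠] s₀, R s) →
      (∀ᶠ s in 𝓝[≠] s₀, R s) ∧ R s₀ := by
    intro s₀ hs₀ h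
    obtain ⟨N, hN, κ, h1, h2, h3⟩ := exists_arc (fun i => hP (X i)) hZ' (hya s₀) h
    have h4 := h2.self_of_nhds
    rw [zero_pow hN.ne', add_zero] at h4
    have h5 : κ 0 ∈ closedBall p ρ := isClosed_closedBall.mem_of_frequently_of_tendsto
      (h3.mono fun _ h => h.1) (h1.continuousAt.tendsto.mono_left nhdsWithin_le_nhds)
    have h6 : κ 0 ∈ ball p ρ := by
      refine lt_of_le_of_ne h5 fun e => hεs (a := y s₀) ?_ ⟨κ 0, ⟨e, h4.1⟩, h4.2⟩
      rw [dist_eq_norm] at hq2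
      rw [mem_ball_zero_iff] at hs₀
      rw [mem_ball, dist_eq_norm]
      simp only [hy, add_sub_cancel_left, norm_smul]
      nlinarith [norm_nonneg s₀, norm_nonneg (π q - π p)]
    obtain ⟨τ, e1, e2⟩ := (h3.and_eventually ((harc κ h1 (h2.mono fun _ h => h.1)
      (hsub h5).1).filter_mono nhdsWithin_le_nhds)).exists
    have h7 : r (κ 0) q := hr.trans (hr.symm e2) e1.2
    exact ⟨fin s₀ N hN κ h1 h2 h6 h7, κ 0, h4.1, h4.2, h5, h7⟩
  have start : ∀ᶠ s in 𝓝[≠] (1 : ℂ), R s := by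
    obtain ⟨l, hl1, hl2⟩ := exists_sep (hfin (π q)) q
    have hy1 : y 1 = π q := by simp [hy]
    obtain ⟨N, hN, β, h1, h2⟩ := exists_roots (hP l) (hya 1)
    obtain ⟨k, hk⟩ := (h2.self_of_nhds (eval q l)).1 (by
      rw [zero_pow hN.ne', add_zero, hy1]
      exact hZ l q hq)
    have hpos : 0 < ‖eval q l‖ / 2 := half_pos (norm_pos_iff.2 hl1)
    have h3 : ∀ᶠ s in 𝓝[≠] (1 : ℂ), ∃ z ∈ zeroLocus ℂ I, π z = y s ∧
        eval z l ∈ closedBall (eval q l) (‖eval q l‖ / 2) := by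
      refine ev_of_pow hN (Eventually.filter_mono nhdsWithin_le_nhds ?_)
      filter_upwards [h2, (h1 k).continuousAt.eventually (closedBall_mem_nhds _ hpos)]
        with τ e1 e2
      obtain ⟨z, hz, e3, e4⟩ := hlift l _ _ ((e1 (β k τ)).2 ⟨k, rfl⟩)
      exact ⟨z, hz, e3, by rw [e4]; nth_rewrite 1 [hk]; exact e2⟩
    obtain ⟨M, hM, κ, h4, h5, h6⟩ := exists_arc (fun i => hP (X i)) hZ' (hya 1) h3.frequently
    have h7 := h5.self_of_nhds
    rw [zero_pow hM.ne', add_zero, hy1] at h7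
    have h8 : eval (κ 0) l ∈ closedBall (eval q l) (‖eval q l‖ / 2) :=
      isClosed_closedBall.mem_of_frequently_of_tendsto h6
        ((an_eval h4 l).continuousAt.tendsto.mono_left nhdsWithin_le_nhds)
    have h9 : κ 0 = q := by
      by_contra hne
      rw [hl2 _ h7 hne, mem_closedBall, dist_zero_left] at h8
      linarith
    exact fin 1 M hM κ h4 h5 (h9 ▸ hq1) (h9 ▸ hr.refl _)
  have hall : ball (0 : ℂ) 2 ⊆ {s | ∀ᶠ t in 𝓝[≠] s, R t} := by
    refine (convex_ball _ _).isPreconnected.subset_of_closure_inter_subset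
      isOpen_setOfPred_eventually_nhdsWithin ⟨1, by simp, start⟩ fun s hs => (step s hs.2 ?_).1
    intro hc
    obtain ⟨a, h1, h2⟩ := mem_closure_iff.1 hs.1 _
      (isOpen_setOfPred_eventually_nhdsWithin (p := fun t => ¬R t)) hc
    obtain ⟨t, h3, h4⟩ := (Eventually.and (f := 𝓝[≠] a) h1 h2).exists
    exact h3 h4
  obtain ⟨z, h1, h2, h3, h4⟩ := (step 0 (by simp) (hall (by simp)).frequently).2
  rw [huniq z h1 (by rw [h2]; simp [hy]) h3] at h4
  exact hr.symm h4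

/-- An equivalence relation that is constant along analytic arcs of an algebraic set has open
classes. -/
theorem eventually_rel (I : Ideal (MvPolynomial σ ℂ)) (hr : Equivalence r)
    (hO : IsOpen O) (harc : ∀ γ : ℂ → σ → ℂ, AnalyticAt ℂ γ 0 →
      (∀ᶠ τ in 𝓝 0, γ τ ∈ zeroLocus ℂ I) → γ 0 ∈ O → ∀ᶠ τ in 𝓝 0, r (γ τ) (γ 0))
    {p : σ → ℂ} (hpO : p ∈ O) : ∀ᶠ q in 𝓝 p, q ∈ zeroLocus ℂ I → r q p := by
  have h : ∀ J ∈ I.minimalPrimes, ∀ᶠ q in 𝓝 p, q ∈ zeroLocus ℂ J → r q p := fun J hJ => by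
    have := hJ.1.1
    exact eventually_rel_prime J hr hO (fun γ h1 h2 =>
      harc γ h1 (h2.mono fun _ h => zeroLocus_anti_mono hJ.1.2 h)) hpO
  filter_upwards [(eventually_all_finite
    (Ideal.finite_minimalPrimes_of_isNoetherianRing _ I)).2 h] with q hq hqI
  obtain ⟨J, hJ, hle⟩ := Ideal.exists_minimalPrimes_le (I := I) (J := vanishingIdeal ℂ {q})
    fun f hf => (mem_vanishingIdeal_singleton_iff q f).2 (hqI f hf)
  exact hq J hJ fun f hf => (mem_vanishingIdeal_singleton_iff q f).1 (hle hf)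

end Vale.Agent.N298
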