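import Vale.Agent.P298L47.Defs

/-!
# P298: families over an arbitrary set of parameters
-/

namespace Vale.Agent.N298

open Topology Set Vale.Agent.P298L47

/-- `F` is holomorphic on the open neighbourhood `W` of `{0} × Ω`; each `f_t = F(·, t)`, `t ∈ Ω`,
vanishes at `0` and has an isolated critical point there; `μ(f_t)` is the same for all `t ∈ Ω`. -/
structure MuConstantOn {n : ℕ} (Ω : Set ℂ) (W : Set ((Fin n → ℂ) × ℂ))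
    (F : (Fin n → ℂ) × ℂ → ℂ) : Prop where
  isOpen : IsOpen W
  axis : {0} ×ˢ Ω ⊆ W
  hol : DifferentiableOn ℂ F W
  zero : ∀ t ∈ Ω, F (0, t) = 0
  crit : ∀ t ∈ Ω, IsolatedCrit fun x => F (x, t)
  mu : ∀ s ∈ Ω, ∀ t ∈ Ω, milnor (fun x => F (x, s)) = milnor fun x => F (x, t)

variable {X : Type} [TopologicalSpace X] [Zero X]

/-- A homeomorphism `Φ(x, t) = (φ_t(x), t)` of a neighbourhood `U` of `{0} × Ω` in `X × Ω` onto a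
neighbourhood `V` of `{0} × Ω` has `φ_t(0) = 0` and `f_t(φ_t(x)) = f_a(x)` on `U`; only values
of `F` on `W` are used. -/
def TrivialOn (Ω : Set ℂ) (a : ℂ) (W : Set (X × ℂ)) (F : X × ℂ → ℂ) : Prop :=
  ∃ U V : Set (X × ℂ), IsOpen U ∧ IsOpen V ∧ {0} ×ˢ Ω ⊆ U ∩ V ∧ U ∪ V ⊆ W ∩ univ ×ˢ Ω ∧
    ∃ Φ : U ≃ₜ V, ∀ p : U, (Φ p).1.2 = p.1.2 ∧ (p.1.1 = 0 → (Φ p).1.1 = 0) ∧
      (p.1.1, a) ∈ W ∧ F (Φ p).1 = F (p.1.1, a)

/-- Inside every neighbourhood of `0` there is a homeomorphism `h` between open neighbourhoods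
of `0` with `h(0) = 0`, `g ∘ h = f` and `h(f⁻¹(0)) = g⁻¹(0)`. -/
def RightEquiv (f g : X → ℂ) : Prop :=
  ∀ N ∈ 𝓝 (0 : X), ∃ A B : Set X, IsOpen A ∧ IsOpen B ∧ A ∪ B ⊆ N ∧
    ∃ (h : A ≃ₜ B) (h0 : 0 ∈ A), (h ⟨0, h0⟩).1 = 0 ∧ (∀ x : A, g (h x).1 = f x.1) ∧
      h '' {x | f x.1 = 0} = {y | g y.1 = 0}

end Vale.Agent.N298
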