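import Mathlib

/-!
# P298: covering homotopy for families of germs

A family of functions `F : X × B → Y` near `{0} × B` that is locally trivial up to fibre
preserving homeomorphisms near `{0} × B` is globally trivial over a contractible base.
-/

namespace Vale.Agent.N298

open Filter Topology Set

variable {X B B' Y : Type*} [TopologicalSpace X] [Zero X] [TopologicalSpace B]
  [TopologicalSpace B']

/-- `(x, b) ↦ (φ (x, b), b)` and `(x, b) ↦ (ψ (x, b), b)` behave at `p` as mutually inverse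
homeomorphisms that carry `F` to `G`. -/
structure Good (F G : X × B → Y) (φ ψ : X × B → X) (p : X × B) : Prop where
  cφ : ContinuousAt φ p
  cψ : ContinuousAt ψ p
  li : ψ (φ p, p.2) = p.1
  ri : φ (ψ p, p.2) = p.1
  eφ : G (φ p, p.2) = F p
  eψ : F (ψ p, p.2) = G p
  zφ : p.1 = 0 → φ p = 0
  zψ : p.1 = 0 → ψ p = 0

/-- the same near `(0, b)` -/
def IsoAt (F G : X × B → Y) (φ ψ : X × B → X) (b : B) : Prop :=
  ∀ᶠ p in 𝓝 ((0 : X), b), Good F G φ ψ p

variable {F G K F' G' : X × B → Y} {φ ψ φ' ψ' : X × B → X} {b : B}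

theorem IsoAt.symm (h : IsoAt F G φ ψ b) : IsoAt G F ψ φ b :=
  h.mono fun _ g => ⟨g.cψ, g.cφ, g.ri, g.li, g.eψ, g.eφ, g.zψ, g.zφ⟩

theorem IsoAt.tendsto (h : IsoAt F G φ ψ b) :
    Tendsto (fun p : X × B => (φ p, p.2)) (𝓝 (0, b)) (𝓝 (0, b)) := by
  have g := h.self_of_nhds
  have h1 : ContinuousAt (fun p : X × B => (φ p, p.2)) (0, b) :=
    g.cφ.prodMk continuousAt_snd
  have h2 := h1.tendsto
  rwa [g.zφ rfl] at h2

theorem IsoAt.trans (h : IsoAt F G φ ψ b) (h' : IsoAt G K φ' ψ' b) :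
    IsoAt F K (fun p => φ' (φ p, p.2)) (fun p => ψ (ψ' p, p.2)) b := by
  filter_upwards [h, h', h.tendsto.eventually h', h'.symm.tendsto.eventually h] with p g g' k' k
  refine ⟨?_, ?_, ?_, ?_, ?_, ?_, fun h0 => ?_, fun h0 => ?_⟩
  · exact ContinuousAt.comp (f := fun p : X × B => (φ p, p.2)) k'.cφ
      (g.cφ.prodMk continuousAt_snd)
  · exact ContinuousAt.comp (f := fun p : X × B => (ψ' p, p.2)) k.cψ
      (g'.cψ.prodMk continuousAt_snd)
  · have h1 := k'.li
    dsimp only at h1 ⊢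
    rw [h1, g.li]
  · have h1 := k.ri
    dsimp only at h1 ⊢
    rw [h1, g'.ri]
  · exact k'.eφ.trans g.eφ
  · exact k.eψ.trans g'.eψ
  · exact k'.zφ (g.zφ h0)
  · exact k.zψ (g'.zψ h0)

theorem IsoAt.congr (h : IsoAt F G φ ψ b) (hF : F =ᶠ[𝓝 (0, b)] F') (hG : G =ᶠ[𝓝 (0, b)] G')
    (hφ : φ =ᶠ[𝓝 (0, b)] φ') (hψ : ψ =ᶠ[𝓝 (0, b)] ψ') : IsoAt F' G' φ' ψ' b := by
  filter_upwards [h, hF, hG, hφ.eventually_nhds, hψ.eventually_nhds,
    h.tendsto.eventually hG, h.tendsto.eventually hψ, h.symm.tendsto.eventually hF,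
    h.symm.tendsto.eventually hφ] with p g e1 e2 e3 e4 e5 e6 e7 e8
  have e3' : φ p = φ' p := e3.self_of_nhds
  have e4' : ψ p = ψ' p := e4.self_of_nhds
  refine ⟨g.cφ.congr e3, g.cψ.congr e4, ?_, ?_, ?_, ?_, fun h0 => ?_, fun h0 => ?_⟩
  · rw [← e3', ← e6, g.li]
  · rw [← e4', ← e8, g.ri]
  · rw [← e3', ← e5, g.eφ, e1]
  · rw [← e4', ← e7, g.eψ, e2]
  · rw [← e3', g.zφ h0]
  · rw [← e4', g.zψ h0]

theorem IsoAt.refl (F : X × B → Y) (b : B) : IsoAt F F Prod.fst Prod.fst b :=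
  Eventually.of_forall fun _ =>
    ⟨continuousAt_fst, continuousAt_fst, rfl, rfl, rfl, rfl, id, id⟩

/-- base change -/
def pb {Z : Type*} (u : B → B') (F : X × B' → Z) : X × B → Z := fun p => F (p.1, u p.2)

theorem IsoAt.pull {F G : X × B' → Y} {φ ψ : X × B' → X} {u : B → B'}
    (hu : ∀ᶠ c in 𝓝 b, ContinuousAt u c) (h : IsoAt F G φ ψ (u b)) :
    IsoAt (pb u F) (pb u G) (pb u φ) (pb u ψ) b := by
  have hc : ∀ p : X × B, ContinuousAt u p.2 → ContinuousAt (fun q : X × B => (q.1, u q.2)) p :=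
    fun p hp => continuousAt_fst.prodMk (ContinuousAt.comp hp continuousAt_snd)
  have h1 : Tendsto (fun q : X × B => (q.1, u q.2)) (𝓝 (0, b)) (𝓝 (0, u b)) :=
    (hc (0, b) hu.self_of_nhds).tendsto
  have h2 : ∀ᶠ p : X × B in 𝓝 (0, b), ContinuousAt u p.2 :=
    (continuousAt_snd (p := ((0 : X), b))).tendsto.eventually hu
  filter_upwards [h1.eventually h, h2] with p g hp
  exact ⟨ContinuousAt.comp (f := fun q : X × B => (q.1, u q.2)) g.cφ (hc p hp),
    ContinuousAt.comp (f := fun q : X × B => (q.1, u q.2)) g.cψ (hc p hp),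
    g.li, g.ri, g.eφ, g.eψ, g.zφ, g.zψ⟩

/-- an isomorphism along the whole of `{0} × B` that is the identity over the complement
of `S` -/
def Rel (S : Set B) (F G : X × B → Y) : Prop :=
  ∃ φ ψ : X × B → X, (∀ b, IsoAt F G φ ψ b) ∧ ∀ p : X × B, p.2 ∉ S → φ p = p.1 ∧ ψ p = p.1

theorem Rel.trans {S : Set B} (h : Rel S F G) (h' : Rel S G K) : Rel S F K := by
  obtain ⟨φ, ψ, h1, h2⟩ := h
  obtain ⟨φ', ψ', h3, h4⟩ := h'
  refine ⟨_, _, fun b => (h1 b).trans (h3 b), fun p hp => ⟨?_, ?_⟩⟩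
  · rw [(h4 (φ p, p.2) hp).1, (h2 p hp).1]
  · rw [(h2 (ψ' p, p.2) hp).2, (h4 p hp).2]

theorem Rel.mono {S S' : Set B} (h : Rel S F G) (hS : S ⊆ S') : Rel S' F G := by
  obtain ⟨φ, ψ, h1, h2⟩ := h
  exact ⟨φ, ψ, h1, fun p hp => h2 p fun hs => hp (hS hs)⟩

/-- the family `E` is trivial over `C` -/
def Chart (E : X × B' → Y) (C : Set B') : Prop :=
  ∃ (f : X → Y) (φ ψ : X × B' → X), ∀ c ∈ C, IsoAt (fun p => f p.1) E φ ψ c

theorem rel_of_chart {E : X × B' → Y} {C : Set B'} (hC : Chart E C) {u v : B → B'}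
    (hu : Continuous u) (hv : Continuous v) {S : Set B} (hS : IsClosed S)
    (h1 : ∀ b ∉ S, u b = v b) (h2 : ∀ b ∈ S, u b ∈ C ∧ v b ∈ C) : Rel S (pb u E) (pb v E) := by
  classical
  obtain ⟨f, φ, ψ, h⟩ := hC
  refine ⟨fun p => if p.2 ∈ S then φ (ψ (p.1, u p.2), v p.2) else p.1,
    fun p => if p.2 ∈ S then φ (ψ (p.1, v p.2), u p.2) else p.1, fun b => ?_,
    fun p hp => ⟨if_neg hp, if_neg hp⟩⟩
  by_cases hb : b ∈ S
  · have i1 := (h _ (h2 b hb).1).pull (Eventually.of_forall fun _ => hu.continuousAt)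
    have i2 := (h _ (h2 b hb).2).pull (Eventually.of_forall fun _ => hv.continuousAt)
    refine (i1.symm.trans i2).congr EventuallyEq.rfl EventuallyEq.rfl ?_ ?_
    · filter_upwards [i1] with p g
      split_ifs with hp
      · rfl
      · have h3 := g.ri
        simp only [pb] at h3 ⊢
        rw [← h1 _ hp, h3]
    · filter_upwards [i1] with p g
      split_ifs with hp
      · rfl
      · have h3 := g.ri
        simp only [pb] at h3 ⊢
        rw [← h1 _ hp, h3]
  · have h3 : ∀ᶠ p : X × B in 𝓝 (0, b), p.2 ∉ S :=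
      (continuousAt_snd (p := ((0 : X), b))).tendsto.eventually (hS.isOpen_compl.mem_nhds hb)
    refine (IsoAt.refl (pb u E) b).congr EventuallyEq.rfl ?_ ?_ ?_
    · filter_upwards [h3] with p hp
      simp only [pb, h1 _ hp]
    · filter_upwards [h3] with p hp using (if_neg hp).symm
    · filter_upwards [h3] with p hp using (if_neg hp).symm

/-- a locally finite composition of isomorphisms -/
theorem iso_of_seq {E : ℕ → X × B → Y} {S : ℕ → Set B} (hS : LocallyFinite S)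
    (h : ∀ k, Rel (S k) (E k) (E (k + 1)))
    (hG : ∀ b, ∃ N, ∀ k, N ≤ k → E k =ᶠ[𝓝 (0, b)] G) :
    ∃ φ ψ : X × B → X, ∀ b, IsoAt (E 0) G φ ψ b := by
  choose φ ψ h1 h2 using h
  let Φ : ℕ → X × B → X := fun k => Nat.rec Prod.fst (fun k A p => φ k (A p, p.2)) k
  let Ψ : ℕ → X × B → X := fun k => Nat.rec Prod.fst (fun k A p => A (ψ k p, p.2)) k
  have h3 : ∀ k b, IsoAt (E 0) (E k) (Φ k) (Ψ k) b := by
    intro k b
    induction k with
    | zero => exact IsoAt.refl _ b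
    | succ k ih => exact ih.trans (h1 k b)
  have h4 : ∀ N (p : X × B), (∀ k, N ≤ k → p.2 ∉ S k) → ∀ k, N ≤ k →
      Φ k p = Φ N p ∧ Ψ k p = Ψ N p := by
    intro N p hp k hk
    induction k, hk using Nat.le_induction with
    | base => exact ⟨rfl, rfl⟩
    | succ k hk ih =>
      constructor
      · show φ k (Φ k p, p.2) = Φ N p
        rw [(h2 k (Φ k p, p.2) (hp k hk)).1, ih.1]
      · show Ψ k (ψ k p, p.2) = Ψ N p
        rw [(h2 k p (hp k hk)).2, ih.2]
  have h5 : ∀ b, ∃ N, ∀ᶠ c in 𝓝 b, ∀ k, N ≤ k → c ∉ S k := by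
    intro b
    obtain ⟨U, hU, hfin⟩ := hS b
    obtain ⟨N, hN⟩ := hfin.bddAbove
    refine ⟨N + 1, ?_⟩
    filter_upwards [hU] with c hc k hk hck
    have := hN (show k ∈ {i | (S i ∩ U).Nonempty} from ⟨c, hck, hc⟩)
    omega
  choose N hN using h5
  refine ⟨fun p => Φ (N p.2) p, fun p => Ψ (N p.2) p, fun b => ?_⟩
  obtain ⟨M, hM⟩ := hG b
  have h6 : ∀ᶠ p : X × B in 𝓝 (0, b),
      Φ (max M (N b)) p = Φ (N p.2) p ∧ Ψ (max M (N b)) p = Ψ (N p.2) p := by
    filter_upwards [(continuousAt_snd (p := ((0 : X), b))).tendsto.eventually (hN b)] with p hp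
    have e1 := h4 (N p.2) p (hN p.2).self_of_nhds (max (max M (N b)) (N p.2)) (le_max_right _ _)
    have e2 := h4 (max M (N b)) p (fun k hk => hp k ((le_max_right _ _).trans hk))
      (max (max M (N b)) (N p.2)) (le_max_left _ _)
    exact ⟨e2.1.symm.trans e1.1, e2.2.symm.trans e1.2⟩
  exact (h3 (max M (N b)) b).congr EventuallyEq.rfl (hM _ (le_max_left _ _))
    (h6.mono fun _ hp => hp.1) (h6.mono fun _ hp => hp.2)

/-- moves between two heights over a closed subset of `U` -/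
def Lift (E : X × B' → Y) (H : B × ℝ → B') (U : Set B) (s : ℝ) : Prop :=
  ∀ S : Set B, IsClosed S → S ⊆ U → ∀ α β : B → ℝ, Continuous α → Continuous β →
    (∀ b, 0 ≤ α b ∧ α b ≤ β b ∧ β b ≤ max (α b) s) → (∀ b ∉ S, α b = β b) →
      Rel S (pb (fun b => H (b, α b)) E) (pb (fun b => H (b, β b)) E)

theorem exists_lift {E : X × B' → Y} (hE : ∀ c, ∃ C ∈ 𝓝 c, Chart E C) {H : B × ℝ → B'}
    (hH : Continuous H) (b : B) : ∃ U ∈ 𝓝 b, Lift E H U 1 := by
  have h0 : Lift E H univ 0 := by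
    intro S _ _ α β _ _ h _
    have e : β = α := funext fun c =>
      le_antisymm ((h c).2.2.trans (max_eq_left (h c).1).le) (h c).2.1
    rw [e]
    exact ⟨_, _, IsoAt.refl _, fun _ _ => ⟨rfl, rfl⟩⟩
  have key : (∃ U ∈ 𝓝 b, Lift E H U 0) → ∃ U ∈ 𝓝 b, Lift E H U 1 := by
    refine isPreconnected_univ.induction₂'
      (fun s t : ℝ => (∃ U ∈ 𝓝 b, Lift E H U s) → ∃ U ∈ 𝓝 b, Lift E H U t) (fun s₀ _ => ?_)
      (fun _ _ _ _ _ _ h1 h2 h => h2 (h1 h)) (mem_univ 0) (mem_univ 1)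
    obtain ⟨C, hC, hch⟩ := hE (H (b, s₀))
    obtain ⟨U', hU', J, hJ, hsub⟩ := mem_nhds_prod_iff.1 (hH.continuousAt.preimage_mem_nhds hC)
    obtain ⟨l, r, hlr, hJ'⟩ := mem_nhds_iff_exists_Ioo_subset.1 hJ
    have step : ∀ s ∈ Ioo l r, ∀ t ∈ Ioo l r,
        (∃ U ∈ 𝓝 b, Lift E H U s) → ∃ U ∈ 𝓝 b, Lift E H U t := by
      rintro s hs t ht ⟨U, hU, hL⟩
      refine ⟨U ∩ U', inter_mem hU hU', fun S hS hSU α β hα hβ h1 h2 => ?_⟩
      have hγ : Continuous fun c => min (max (α c) s) (β c) :=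
        (hα.max continuous_const).min hβ
      refine (hL S hS (hSU.trans inter_subset_left) α _ hα hγ (fun c => ⟨(h1 c).1,
        le_min (le_max_left _ _) (h1 c).2.1, min_le_left _ _⟩) fun c hc => ?_).trans ?_
      · rw [← h2 c hc, min_eq_right (le_max_left _ _)]
      · refine (rel_of_chart hch (S := S ∩ {c | s ≤ min (max (α c) s) (β c) ∧ β c ≤ t})
          (hH.comp (continuous_id.prodMk hγ)) (hH.comp (continuous_id.prodMk hβ))
          (hS.inter ((isClosed_le continuous_const hγ).inter (isClosed_le hβ continuous_const)))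
          (fun c hc => ?_) fun c hc => ?_).mono inter_subset_left
        · have e : min (max (α c) s) (β c) = β c := by
            by_contra hne
            have e1 : max (α c) s < β c := by
              by_contra e2
              exact hne (min_eq_right (not_lt.1 e2))
            refine hc ⟨?_, ?_, ?_⟩
            · by_contra e3
              exact absurd ((le_max_left _ _).trans_lt e1) (h2 c e3 ▸ lt_irrefl _)
            · rw [min_eq_left e1.le]
              exact le_max_right _ _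
            · rcases le_max_iff.1 (h1 c).2.2 with e4 | e4
              · exact absurd ((le_max_left _ _).trans_lt e1) (not_lt.2 e4)
              · exact e4
          exact congrArg (fun a => H (c, a)) e
        · obtain ⟨hc1, hc2, hc3⟩ := hc
          have hcU : c ∈ U' := (hSU hc1).2
          have e1 := min_le_right (max (α c) s) (β c)
          exact ⟨hsub (mk_mem_prod hcU (hJ' ⟨hs.1.trans_le hc2, (e1.trans hc3).trans_lt ht.2⟩)),
            hsub (mk_mem_prod hcU (hJ' ⟨hs.1.trans_le (hc2.trans e1), hc3.trans_lt ht.2⟩))⟩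
    refine eventually_nhdsWithin_of_eventually_nhds ?_
    filter_upwards [Ioo_mem_nhds hlr.1 hlr.2] with t ht
    exact ⟨step s₀ hlr t ht, step t ht s₀ hlr⟩
  exact key ⟨univ, univ_mem, h0⟩

/-- **Covering homotopy theorem** for families of germs. -/
theorem iso_of_homotopy [NormalSpace B] [ParacompactSpace B] [LindelofSpace B] [Nonempty B]
    {E : X × B' → Y} (hE : ∀ c, ∃ C ∈ 𝓝 c, Chart E C) {H : B × ℝ → B'} (hH : Continuous H) :
    ∃ φ ψ : X × B → X, ∀ b,
      IsoAt (pb (fun b => H (b, 0)) E) (pb (fun b => H (b, 1)) E) φ ψ b := by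
  choose U hU hL using exists_lift hE hH
  obtain ⟨t, htc, ht⟩ := LindelofSpace.elim_nhds_subcover (fun b => interior (U b))
    fun b => interior_mem_nhds.2 (hU b)
  have hne : t.Nonempty := by
    obtain ⟨b⟩ := ‹Nonempty B›
    obtain ⟨c, hc, -⟩ := mem_iUnion₂.1 (ht.symm ▸ mem_univ b)
    exact ⟨c, hc⟩
  obtain ⟨e, rfl⟩ := htc.exists_eq_range hne
  obtain ⟨f, hf⟩ := BumpCovering.exists_isSubordinate isClosed_univ
    (fun k => interior (U (e k))) (fun _ => isOpen_interior) (by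
      intro b _
      obtain ⟨c, ⟨k, rfl⟩, hc⟩ := mem_iUnion₂.1 (ht.symm ▸ mem_univ b)
      exact mem_iUnion.2 ⟨k, hc⟩)
  let α : ℕ → B → ℝ := fun k => Nat.rec (fun _ => 0) (fun k A b => max (A b) (f k b)) k
  have hc : ∀ k, Continuous (α k) := by
    intro k
    induction k with
    | zero => exact continuous_const
    | succ k ih => exact ih.max (f k).continuous
  have hb : ∀ k b, 0 ≤ α k b ∧ α k b ≤ 1 := by
    intro k b
    induction k with
    | zero => exact ⟨le_rfl, zero_le_one⟩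
    | succ k ih => exact ⟨ih.1.trans (le_max_left _ _), max_le ih.2 (f.le_one k b)⟩
  refine iso_of_seq (E := fun k => pb (fun b => H (b, α k b)) E) f.locallyFinite_tsupport
    (fun k => hL (e k) _ (isClosed_tsupport _) ((hf k).trans interior_subset) _ _ (hc k)
      (hc (k + 1)) (fun b => ⟨(hb k b).1, le_max_left _ _,
        (hb (k + 1) b).2.trans (le_max_right _ _)⟩) fun b hb' => ?_) fun b => ?_
  · show α k b = max (α k b) (f k b)
    rw [image_eq_zero_of_notMem_tsupport hb', max_eq_left (hb k b).1]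
  · obtain ⟨i, hi⟩ := f.eventuallyEq_one' b (mem_univ b)
    refine ⟨i + 1, fun k hk => ?_⟩
    filter_upwards [(continuousAt_snd (p := ((0 : X), b))).tendsto.eventually hi] with p hp
    have h1 : ∀ k, i + 1 ≤ k → 1 ≤ α k p.2 := by
      intro k hk
      induction k, hk using Nat.le_induction with
      | base => exact le_max_of_le_right hp.ge
      | succ k _ ih => exact le_max_of_le_left ih
    simp only [pb, le_antisymm (hb k p.2).2 (h1 k hk)]

/-- A locally trivial family over an open contractible subset of a metric space is trivial. -/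
theorem iso_of_contractible {P : Type*} [MetricSpace P] [SecondCountableTopology P] {Ω : Set P}
    (hΩ : IsOpen Ω) [ContractibleSpace Ω] {E : X × P → Y} (hE : ∀ t ∈ Ω, ∃ C ∈ 𝓝 t, Chart E C)
    {t₀ : P} (ht₀ : t₀ ∈ Ω) :
    ∃ φ ψ : X × P → X, ∀ t ∈ Ω, IsoAt (fun p => E (p.1, t₀)) E φ ψ t := by
  classical
  have : Nonempty Ω := ⟨⟨t₀, ht₀⟩⟩
  obtain ⟨y, ⟨H⟩⟩ := id_nullhomotopic Ω
  have hE' : ∀ c : Ω, ∃ C ∈ 𝓝 c, Chart (pb (Subtype.val : Ω → P) E) C := by
    intro c
    obtain ⟨C, hC, f, φ, ψ, h⟩ := hE c.1 c.2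
    exact ⟨Subtype.val ⁻¹' C, continuous_subtype_val.continuousAt.preimage_mem_nhds hC, f, _, _,
      fun d hd => (h d.1 hd).pull (Eventually.of_forall fun _ =>
        continuous_subtype_val.continuousAt)⟩
  obtain ⟨φ, ψ, h⟩ := iso_of_homotopy (B := Ω) hE'
    (H := fun q : Ω × ℝ => H (projIcc 0 1 zero_le_one q.2, q.1))
    (H.continuous.comp ((continuous_projIcc.comp continuous_snd).prodMk continuous_fst))
  have e0 : (fun b : Ω => H (projIcc (0 : ℝ) 1 zero_le_one 0, b)) = id := by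
    funext b
    rw [projIcc_left]
    exact H.apply_zero b
  have e1 : (fun b : Ω => H (projIcc (0 : ℝ) 1 zero_le_one 1, b)) = fun _ => y := by
    funext b
    rw [projIcc_right]
    exact H.apply_one b
  dsimp only at h
  rw [e0, e1] at h
  have h2 := fun b : Ω => ((h ⟨t₀, ht₀⟩).pull (u := fun _ : Ω => (⟨t₀, ht₀⟩ : Ω)) (b := b)
    (Eventually.of_forall fun _ => continuousAt_const)).trans (h b).symm
  let u : P → Ω := fun t => if ht : t ∈ Ω then ⟨t, ht⟩ else ⟨t₀, ht₀⟩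
  have hu : ∀ t ∈ Ω, ∀ᶠ c in 𝓝 t, (u c : P) = c := fun t ht => by
    filter_upwards [hΩ.mem_nhds ht] with c hc
    simp only [u, dif_pos hc]
  have hc : ∀ t ∈ Ω, ContinuousAt u t := fun t ht =>
    IsInducing.subtypeVal.continuousAt_iff.2 (continuousAt_id.congr ((hu t ht).mono
      fun _ e => e.symm))
  refine ⟨_, _, fun t ht => ((h2 (u t)).pull ((hΩ.eventually_mem ht).mono hc)).congr
    EventuallyEq.rfl ?_ EventuallyEq.rfl EventuallyEq.rfl⟩
  filter_upwards [(continuousAt_snd (p := ((0 : X), t))).tendsto.eventually (hu t ht)] with p hp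
  simp only [pb, id, hp]

/-- An isomorphism of germs along `{0} × Ω` is a homeomorphism of neighbourhoods. -/
theorem exists_homeomorph {Ω : Set B} {N : Set (X × B)} (hN : IsOpen N) (hax : {0} ×ˢ Ω ⊆ N)
    (h : ∀ t ∈ Ω, IsoAt F G φ ψ t) :
    ∃ U V : Set (X × B), IsOpen U ∧ IsOpen V ∧ {0} ×ˢ Ω ⊆ U ∩ V ∧ U ∪ V ⊆ N ∧
      ∃ Φ : U ≃ₜ V, ∀ p : U, (Φ p).1.2 = p.1.2 ∧ (p.1.1 = 0 → (Φ p).1.1 = 0) ∧
        G (Φ p).1 = F p.1 := by
  set A : Set (X × B) := interior {p | Good F G φ ψ p} ∩ N with hA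
  have hAo : IsOpen A := isOpen_interior.inter hN
  have hg : ∀ p ∈ A, Good F G φ ψ p := fun p hp => interior_subset hp.1
  have c1 : ContinuousOn (fun p : X × B => (φ p, p.2)) A := fun p hp =>
    ((hg p hp).cφ.prodMk continuousAt_snd).continuousWithinAt
  have c2 : ContinuousOn (fun p : X × B => (ψ p, p.2)) A := fun p hp =>
    ((hg p hp).cψ.prodMk continuousAt_snd).continuousWithinAt
  let e : OpenPartialHomeomorph (X × B) (X × B) :=
    { toFun := fun p => (φ p, p.2)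
      invFun := fun p => (ψ p, p.2)
      source := A ∩ (fun p : X × B => (φ p, p.2)) ⁻¹' A
      target := A ∩ (fun p : X × B => (ψ p, p.2)) ⁻¹' A
      map_source' := fun p hp => ⟨hp.2, by
        rw [mem_preimage, (hg p hp.1).li]
        exact hp.1⟩
      map_target' := fun p hp => ⟨hp.2, by
        rw [mem_preimage, (hg p hp.1).ri]
        exact hp.1⟩
      left_inv' := fun p hp => Prod.ext (hg p hp.1).li rfl
      right_inv' := fun p hp => Prod.ext (hg p hp.1).ri rfl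
      open_source := c1.isOpen_inter_preimage hAo hAo
      open_target := c2.isOpen_inter_preimage hAo hAo
      continuousOn_toFun := c1.mono inter_subset_left
      continuousOn_invFun := c2.mono inter_subset_left }
  refine ⟨e.source, e.target, e.open_source, e.open_target, ?_, ?_, e.toHomeomorphSourceTarget,
    fun p => ⟨rfl, (hg p p.2.1).zφ, (hg p p.2.1).eφ⟩⟩
  · rintro ⟨x, t⟩ ⟨hx, ht⟩
    obtain rfl : x = 0 := hx
    have h1 : ((0 : X), t) ∈ A := ⟨mem_interior_iff_mem_nhds.2 (h t ht), hax ⟨rfl, ht⟩⟩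
    refine ⟨⟨h1, ?_⟩, h1, ?_⟩
    · rw [mem_preimage, (hg _ h1).zφ rfl]
      exact h1
    · rw [mem_preimage, (hg _ h1).zψ rfl]
      exact h1
  · rintro p (hp | hp)
    · exact hp.1.2
    · exact hp.1.2

/-- An open partial homeomorphism over the base gives an isomorphism of germs. -/
theorem isoAt_of_homeo (Φ : OpenPartialHomeomorph (X × B) (X × B))
    (h1 : ∀ p ∈ Φ.source, (0, p.2) ∈ Φ.source ∧ Φ (0, p.2) = (0, p.2))
    (h2 : ∀ p ∈ Φ.source, (Φ p).2 = p.2 ∧ G ((Φ p).1, p.2) = F p) (hb : (0, b) ∈ Φ.source) :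
    IsoAt F G (fun p => (Φ p).1) (fun p => (Φ.symm p).1) b := by
  have hb' : ((0 : X), b) ∈ Φ.target := by
    rw [← (h1 _ hb).2]
    exact Φ.map_source hb
  filter_upwards [Φ.open_source.mem_nhds hb, Φ.open_target.mem_nhds hb'] with p hs ht
  have e1 : ((Φ p).1, p.2) = Φ p := Prod.ext rfl (h2 p hs).1.symm
  have e3 : (Φ.symm p).2 = p.2 := by
    rw [← (h2 _ (Φ.map_target ht)).1, Φ.right_inv ht]
  have e2 : ((Φ.symm p).1, p.2) = Φ.symm p := Prod.ext rfl e3.symm
  refine ⟨(Φ.continuousAt hs).fst, (Φ.continuousAt_symm ht).fst, ?_, ?_, (h2 p hs).2, ?_,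
    fun h0 => ?_, fun h0 => ?_⟩
  · rw [e1, Φ.left_inv hs]
  · rw [e2, Φ.right_inv ht]
  · rw [e2, ← (h2 _ (Φ.map_target ht)).2, Φ.right_inv ht, e3]
  · have e : p = (0, p.2) := Prod.ext h0 rfl
    rw [e, (h1 p hs).2]
  · have e : p = (0, p.2) := Prod.ext h0 rfl
    rw [e, ← (h1 p hs).2, Φ.left_inv (h1 p hs).1]

end Vale.Agent.N298
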