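import Vale.Agent.P298.H766.Germ
import Vale.Agent.N298.Arc

/-!
# P298: jets, finite determinacy and the strata of constant Milnor number
-/

namespace Vale.Agent.N298

open Filter Topology Set Metric Module Vale.Agent.P298 Vale.Agent.P298.H766

noncomputable section

/-- Lower semicontinuity of the rank of a linear family of linear maps. -/
theorem exists_poly_rank {σ M Q : Type} [Fintype σ] [AddCommGroup M] [Module ℂ M]
    [AddCommGroup Q] [Module ℂ Q] [Module.Finite ℂ Q] (L : σ → M →ₗ[ℂ] Q) (z₀ : σ → ℂ) :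
    ∃ c : MvPolynomial σ ℂ, MvPolynomial.eval z₀ c ≠ 0 ∧ ∀ z, MvPolynomial.eval z c ≠ 0 →
      finrank ℂ (LinearMap.range (∑ k, z₀ k • L k)) ≤
        finrank ℂ (LinearMap.range (∑ k, z k • L k)) := by
  classical
  let b := Module.finBasis ℂ (LinearMap.range (∑ k, z₀ k • L k))
  choose u hu using fun i => (b i).2
  obtain ⟨g, hg⟩ := LinearMap.exists_leftInverse_of_injective
    (LinearMap.range (∑ k, z₀ k • L k)).subtype (Submodule.ker_subtype _)
  have key : ∀ z : σ → ℂ, MvPolynomial.eval z (Matrix.det (Matrix.of fun i j =>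
      ∑ k, MvPolynomial.X k * MvPolynomial.C (b.coord j (g (L k (u i)))))) =
      Matrix.det (Matrix.of fun i j => b.coord j (g ((∑ k, z k • L k) (u i)))) := by
    intro z
    rw [RingHom.map_det]
    congr 1
    ext i j
    simp [LinearMap.sum_apply, map_sum]
  refine ⟨Matrix.det (Matrix.of fun i j =>
      ∑ k, MvPolynomial.X k * MvPolynomial.C (b.coord j (g (L k (u i))))), ?_, fun z hz => ?_⟩
  rotate_left
  · rw [key] at hz
    have h1 := Matrix.linearIndependent_rows_of_det_ne_zero hz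
    have h2 := LinearIndependent.of_comp (v := fun i =>
      (⟨(∑ k, z k • L k) (u i), LinearMap.mem_range_self _ _⟩ :
        LinearMap.range (∑ k, z k • L k)))
      (LinearMap.pi fun j => (b.coord j).comp (g.comp (Submodule.subtype _))) h1
    simpa using h2.fintype_card_le_finrank
  · rw [key]
    have e : (Matrix.of fun i j => b.coord j (g ((∑ k, z₀ k • L k) (u i)))) = 1 := by
      ext i j
      have h1 : g (b i) = b i := LinearMap.congr_fun hg (b i)
      rw [Matrix.of_apply, hu, h1, Matrix.one_apply]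
      simp [Finsupp.single_apply]
    rw [e, Matrix.det_one]
    exact one_ne_zero

variable {n : ℕ}

theorem finite_pow (M : ℕ) : Module.Finite ℂ (MvPowerSeries (Fin n) ℂ ⧸ mR n ^ M) := by
  refine Module.Finite.of_surjective
    (((Ideal.Quotient.mkₐ ℂ (mR n ^ M)).comp
      (MvPolynomial.coeToMvPowerSeries.algHom ℂ)).toLinearMap.comp
      (MvPolynomial.restrictTotalDegree (Fin n) ℂ M).subtype) fun a => ?_
  obtain ⟨f, rfl⟩ := Ideal.Quotient.mk_surjective a
  refine ⟨⟨f.truncTotal (M + 1), (MvPolynomial.mem_restrictTotalDegree _ _ _).2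
    (Nat.lt_succ_iff.1 (MvPowerSeries.totalDegree_truncTotal_lt f M.succ_ne_zero))⟩, ?_⟩
  refine (Ideal.Quotient.eq.2 ?_).symm
  have h := Ideal.pow_le_pow_right (I := mR n) M.le_succ
    (mem_mR_pow_of_order (M + 1) (exists_trunc (M + 1) f))
  simpa using h

theorem factor_surj {I J : Ideal (MvPowerSeries (Fin n) ℂ)} (h : I ≤ J) :
    Function.Surjective (Ideal.Quotient.factorₐ ℂ h).toLinearMap :=
  Ideal.Quotient.factor_surjective h

theorem finite_sup (J : Ideal (MvPowerSeries (Fin n) ℂ)) (M : ℕ) :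
    Module.Finite ℂ (MvPowerSeries (Fin n) ℂ ⧸ (J ⊔ mR n ^ M)) :=
  have := finite_pow (n := n) M
  Module.Finite.of_surjective _ (factor_surj (le_sup_right (a := J)))

theorem le_of_finrank_le {I J : Ideal (MvPowerSeries (Fin n) ℂ)} (h : I ≤ J)
    [Module.Finite ℂ (MvPowerSeries (Fin n) ℂ ⧸ I)]
    (h2 : finrank ℂ (MvPowerSeries (Fin n) ℂ ⧸ I) ≤ finrank ℂ (MvPowerSeries (Fin n) ℂ ⧸ J)) :
    J ≤ I := by
  have := Module.Finite.of_surjective _ (factor_surj h)
  have h3 := (LinearMap.injective_iff_surjective_of_finrank_eq_finrank (le_antisymm h2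
    (LinearMap.finrank_le_finrank_of_surjective (factor_surj h)))).2 (factor_surj h)
  intro a ha
  refine Ideal.Quotient.eq_zero_iff_mem.1 (h3 ?_)
  rw [map_zero]
  exact Ideal.Quotient.eq_zero_iff_mem.2 ha

/-- Nakayama -/
theorem sup_eq_of_le {J : Ideal (MvPowerSeries (Fin n) ℂ)} {μ : ℕ}
    (h : finrank ℂ (MvPowerSeries (Fin n) ℂ ⧸ (J ⊔ mR n ^ (μ + 1))) ≤ μ) :
    J ⊔ mR n ^ (μ + 1) = J := by
  by_contra hne
  have key : ∀ k ≤ μ + 1, k ≤ finrank ℂ (MvPowerSeries (Fin n) ℂ ⧸ (J ⊔ mR n ^ k)) := by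
    intro k
    induction k with
    | zero => exact fun _ => Nat.zero_le _
    | succ k ih =>
      intro hk
      by_contra hlt
      have := finite_sup J (k + 1)
      have h1 := le_of_finrank_le (I := J ⊔ mR n ^ (k + 1)) (J := J ⊔ mR n ^ k)
        (sup_le_sup_left (Ideal.pow_le_pow_right k.le_succ) J)
        ((Nat.lt_succ_iff.1 (not_le.1 hlt)).trans (ih (by omega)))
      have hfg : (mR n).FG := Submodule.fg_span (finite_range _)
      have h2 : mR n ^ k ≤ J := by
        refine Submodule.le_of_le_smul_of_le_jacobson_bot (I := mR n) (Ideal.FG.pow hfg) ?_ ?_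
        · rw [IsLocalRing.jacobson_eq_maximalIdeal _ bot_ne_top, maximalIdeal_eq]
        · rw [Ideal.smul_eq_mul, ← pow_succ']
          exact le_sup_right.trans h1
      exact hne (sup_eq_left.2 ((Ideal.pow_le_pow_right (by omega)).trans h2))
  have := key _ le_rfl
  omega

/-- the Jacobian ideal -/
def jac (φ : MvPowerSeries (Fin n) ℂ) : Ideal (MvPowerSeries (Fin n) ℂ) :=
  Ideal.span (range fun i => MvPowerSeries.pderiv ℂ i φ)

/-- the truncated Milnor number -/
def nu (M : ℕ) (φ : MvPowerSeries (Fin n) ℂ) : ℕ :=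
  finrank ℂ (MvPowerSeries (Fin n) ℂ ⧸ (jac φ ⊔ mR n ^ M))

theorem milnor_iff_nu {f : (Fin n → ℂ) → ℂ} (hf : Hol f) (μ : ℕ) :
    Milnor f μ ↔ nu (μ + 1) (ser f) = μ := by
  have e : serIdeal (fun i => pd i f) = jac (ser f) := by
    rw [serIdeal, jac]
    congr 2
    funext i
    exact ser_pd hf i
  rw [Milnor, colength_iff_ser (fun i => hol_pd hf i), e, nu]
  constructor
  · rintro ⟨h1, h2⟩
    rw [sup_eq_of_le ((LinearMap.finrank_le_finrank_of_surjective
      (factor_surj (le_sup_left (b := mR n ^ (μ + 1))))).trans h2.le), h2]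
  · intro h
    have h1 := finite_sup (jac (ser f)) (μ + 1)
    have h2 := sup_eq_of_le (J := jac (ser f)) (μ := μ) h.le
    rw [h2] at h h1
    exact ⟨h1, h⟩

theorem nu_congr {M : ℕ} {φ ψ : MvPowerSeries (Fin n) ℂ}
    (h : ∀ d, Finsupp.degree d < M + 1 → φ.coeff d = ψ.coeff d) : nu M φ = nu M ψ := by
  have key : ∀ φ ψ : MvPowerSeries (Fin n) ℂ,
      (∀ d, Finsupp.degree d < M + 1 → φ.coeff d = ψ.coeff d) →
        jac φ ⊔ mR n ^ M ≤ jac ψ ⊔ mR n ^ M := by
    intro φ ψ h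
    refine sup_le (Ideal.span_le.2 ?_) le_sup_right
    rintro _ ⟨i, rfl⟩
    refine Submodule.mem_sup.2 ⟨_, Ideal.subset_span ⟨i, rfl⟩,
      MvPowerSeries.pderiv ℂ i φ - MvPowerSeries.pderiv ℂ i ψ, ?_, add_sub_cancel _ _⟩
    refine mem_mR_pow_of_order M (MvPowerSeries.le_order fun d hd => ?_)
    have hd' : Finsupp.degree d < M := by exact_mod_cast hd
    rw [map_sub, MvPowerSeries.coeff_pderiv, MvPowerSeries.coeff_pderiv, h, sub_self]
    rw [map_add, Finsupp.degree_single]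
    omega
  rw [nu, nu, le_antisymm (key φ ψ h) (key ψ φ fun d hd => (h d hd).symm)]

/-- Upper semicontinuity of the truncated Milnor number in the Zariski topology. -/
theorem exists_poly_nu {σ : Type} [Fintype σ] (B : σ → MvPowerSeries (Fin n) ℂ) (M : ℕ)
    (z₀ : σ → ℂ) : ∃ c : MvPolynomial σ ℂ, MvPolynomial.eval z₀ c ≠ 0 ∧
      ∀ z, MvPolynomial.eval z c ≠ 0 → nu M (∑ k, z k • B k) ≤ nu M (∑ k, z₀ k • B k) := by
  have := finite_pow (n := n) M
  let L : σ → (Fin n → MvPowerSeries (Fin n) ℂ) →ₗ[ℂ] (MvPowerSeries (Fin n) ℂ ⧸ mR n ^ M) :=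
    fun k => (Ideal.Quotient.mkₐ ℂ (mR n ^ M)).toLinearMap.comp
      (∑ j, (LinearMap.mulRight ℂ (MvPowerSeries.pderiv ℂ j (B k))).comp (LinearMap.proj j))
  have hL : ∀ (z : σ → ℂ) a, (∑ k, z k • L k) a = Ideal.Quotient.mk (mR n ^ M)
      (∑ j, a j * MvPowerSeries.pderiv ℂ j (∑ k, z k • B k)) := by
    intro z a
    rw [← Ideal.Quotient.mkₐ_eq_mk ℂ]
    simp only [L, LinearMap.sum_apply, LinearMap.smul_apply, LinearMap.comp_apply,
      LinearMap.mulRight_apply, LinearMap.proj_apply, AlgHom.toLinearMap_apply, map_sum,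
      Derivation.map_smul, Finset.mul_sum, Finset.smul_sum, mul_smul_comm, map_smul]
    exact Finset.sum_comm
  have key : ∀ z : σ → ℂ, nu M (∑ k, z k • B k) + finrank ℂ (LinearMap.range (∑ k, z k • L k)) =
      finrank ℂ (MvPowerSeries (Fin n) ℂ ⧸ mR n ^ M) := by
    intro z
    have h1 := LinearMap.finrank_range_add_finrank_ker (Ideal.Quotient.factorₐ ℂ
      (le_sup_right (a := jac (∑ k, z k • B k)) (b := mR n ^ M))).toLinearMap
    rw [LinearMap.range_eq_top.2 (factor_surj _), finrank_top] at h1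
    have h2 : LinearMap.range (∑ k, z k • L k) = LinearMap.ker (Ideal.Quotient.factorₐ ℂ
        (le_sup_right (a := jac (∑ k, z k • B k)) (b := mR n ^ M))).toLinearMap := by
      ext x
      constructor
      · rintro ⟨a, rfl⟩
        rw [hL]
        exact Ideal.Quotient.eq_zero_iff_mem.2 (Ideal.mem_sup_left
          (Ideal.mem_span_range_iff_exists_fun.2 ⟨a, rfl⟩))
      · intro hx
        obtain ⟨x, rfl⟩ := Ideal.Quotient.mk_surjective x
        obtain ⟨y, hy, w, hw, rfl⟩ := Submodule.mem_sup.1 (Ideal.Quotient.eq_zero_iff_mem.1 hx)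
        obtain ⟨a, rfl⟩ := Ideal.mem_span_range_iff_exists_fun.1 hy
        refine ⟨a, ?_⟩
        rw [hL, map_add, Ideal.Quotient.eq_zero_iff_mem.2 hw, add_zero]
    rw [h2]
    exact h1
  obtain ⟨c, h1, h2⟩ := exists_poly_rank L z₀
  refine ⟨c, h1, fun z hz => ?_⟩
  have h3 := h2 z hz
  have h4 := key z
  have h5 := key z₀
  omega

/-- the polynomial with the coefficients `z` -/
def fz (s : Finset (Fin n →₀ ℕ)) (z : s → ℂ) (x : Fin n → ℂ) : ℂ :=
  ∑ k : s, z k * MvPolynomial.eval x (MvPolynomial.monomial k.1 1)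

theorem an_poly (p : MvPolynomial (Fin n) ℂ) (x : Fin n → ℂ) :
    AnalyticAt ℂ (fun y => MvPolynomial.eval y p) x :=
  AnalyticOnNhd.eval_mvPolynomial p x (mem_univ x)

theorem hol_fz (s : Finset (Fin n →₀ ℕ)) (z : s → ℂ) : Hol (fz s z) :=
  Finset.analyticAt_fun_sum _ fun _ _ => analyticAt_const.mul (an_poly _ 0)

theorem ser_fz (s : Finset (Fin n →₀ ℕ)) (z : s → ℂ) :
    ser (fz s z) = ∑ k : s, z k • MvPowerSeries.monomial k.1 (1 : ℂ) := by
  refine (ser_sum Finset.univ (u := fun (k : s) x =>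
    z k * MvPolynomial.eval x (MvPolynomial.monomial k.1 1))
    fun k => analyticAt_const.mul (an_poly _ 0)).trans (Finset.sum_congr rfl fun k _ => ?_)
  rw [ser_mul analyticAt_const (an_poly _ 0), ser_const, ser_eq (an_poly _ 0),
    MvPowerSeries.smul_eq_C_mul, ← MvPolynomial.coe_monomial, ← T_toAn]
  congr 2
  exact Subtype.ext (funext fun x => (toAn_apply _ x).symm)

theorem fz_zero {s : Finset (Fin n →₀ ℕ)} (hs : 0 ∉ s) (z : s → ℂ) : fz s z 0 = 0 := by
  refine Finset.sum_eq_zero fun k _ => ?_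
  have hk : k.1 ≠ 0 := fun h => hs (h ▸ k.2)
  rw [MvPolynomial.eval_zero, MvPolynomial.constantCoeff_monomial, if_neg hk, mul_zero]

/-- `r` holds between the members of every `μ`-constant family over a disk -/
def DiscRel (r : ((Fin n → ℂ) → ℂ) → ((Fin n → ℂ) → ℂ) → Prop) : Prop :=
  ∀ ρ : ℝ, 0 < ρ → ∀ F : (Fin n → ℂ) → ℂ → ℂ, IsHolFamily ρ F → ∀ μ : ℕ,
    (∀ t ∈ ball (0 : ℂ) ρ, Milnor (F · t) μ) →
      ∀ t ∈ ball (0 : ℂ) ρ, ∀ t' ∈ ball (0 : ℂ) ρ, r (F · t) (F · t')

variable {r : ((Fin n → ℂ) → ℂ) → ((Fin n → ℂ) → ℂ) → Prop}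

/-- the classes are open in the stratum of constant Milnor number -/
theorem eventually_fz (hr : Equivalence r) (hd : DiscRel r) {s : Finset (Fin n →₀ ℕ)}
    (hs : 0 ∉ s) {μ : ℕ} {p : s → ℂ} (hp : Milnor (fz s p) μ) :
    ∀ᶠ q in 𝓝 p, Milnor (fz s q) μ → r (fz s q) (fz s p) := by
  have hiff : ∀ z : s → ℂ, Milnor (fz s z) μ ↔
      nu (μ + 1) (∑ k : s, z k • MvPowerSeries.monomial k.1 (1 : ℂ)) = μ := fun z => by
    rw [milnor_iff_nu (hol_fz s z), ser_fz]
  choose c h1 h2 using exists_poly_nu (fun k : s => MvPowerSeries.monomial k.1 (1 : ℂ)) (μ + 1)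
  have hO : IsOpen {z : s → ℂ | MvPolynomial.eval z (c p) ≠ 0} :=
    isOpen_ne_fun (c p).continuous_eval continuous_const
  have h3 := eventually_rel (r := fun z w => r (fz s z) (fz s w))
    (MvPolynomial.vanishingIdeal ℂ
      {z : s → ℂ | μ ≤ nu (μ + 1) (∑ k : s, z k • MvPowerSeries.monomial k.1 (1 : ℂ))})
    ⟨fun _ => hr.refl _, hr.symm, hr.trans⟩ hO (fun γ e1 e2 e3 => ?_) (h1 p)
  · filter_upwards [h3] with q hq hm
    exact hq (MvPolynomial.zeroLocus_vanishingIdeal_le _ ((hiff q).1 hm).ge)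
  obtain ⟨δ, hδ, h4⟩ := Metric.eventually_nhds_iff_ball.1 (e1.eventually_analyticAt.and
    (e2.and (e1.continuousAt.eventually (hO.mem_nhds e3))))
  filter_upwards [ball_mem_nhds (0 : ℂ) hδ] with τ hτ
  refine hd δ hδ (fun x t => fz s (γ t) x) (fun t ht => ⟨?_, fz_zero hs _⟩) μ
    (fun t ht => (hiff _).2 (le_antisymm ?_ ?_)) τ hτ 0 (mem_ball_self hδ)
  · refine Finset.analyticAt_fun_sum _ fun k _ => AnalyticAt.mul ?_ ?_
    · exact AnalyticAt.comp (g := fun t => γ t k) (analyticAt_pi_iff.1 (h4 t ht).1 k)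
        analyticAt_snd
    · exact (an_poly _ 0).comp_of_eq analyticAt_fst rfl
  · exact (h2 p _ (h4 t ht).2.2).trans ((hiff p).1 hp).le
  · by_contra hlt
    refine h1 (γ t) ((h4 t ht).2.1 _ fun z hz => ?_)
    by_contra hne
    exact hlt (le_trans hz (h2 (γ t) z hne))

/-- finite determinacy -/
theorem rel_jet (hd : DiscRel r) {μ : ℕ} {s : Finset (Fin n →₀ ℕ)}
    (hs : ∀ d, d ∈ s ↔ d ≠ 0 ∧ Finsupp.degree d < μ + 1 + 1) {f : (Fin n → ℂ) → ℂ} (hf : Hol f)
    (h0 : f 0 = 0) (hμ : Milnor f μ) :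
    Milnor (fz s fun k => (ser f).coeff k.1) μ ∧ r f (fz s fun k => (ser f).coeff k.1) := by
  classical
  set g := fz s fun k => (ser f).coeff k.1 with hg
  have hgh : Hol g := hol_fz _ _
  have hs0 : 0 ∉ s := fun h => ((hs 0).1 h).1 rfl
  have h1 : ∀ d, Finsupp.degree d < μ + 1 + 1 → (ser g).coeff d = (ser f).coeff d := by
    intro d hd'
    by_cases e : d = 0
    · rw [e, MvPowerSeries.coeff_zero_eq_constantCoeff_apply,
        MvPowerSeries.coeff_zero_eq_constantCoeff_apply, constantCoeff_ser hf,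
        constantCoeff_ser hgh, h0]
      exact fz_zero hs0 _
    · rw [hg, ser_fz, map_sum, Finset.sum_eq_single ⟨d, (hs d).2 ⟨e, hd'⟩⟩]
      · simp
      · intro k _ hk
        have hk' : d ≠ k.1 := fun h => hk (Subtype.ext h.symm)
        rw [map_smul, MvPowerSeries.coeff_monomial_ne hk', smul_zero]
      · exact fun h => absurd (Finset.mem_univ _) h
  have hsub : Hol fun x => f x - g x := AnalyticAt.sub hf hgh
  have h2 : ∀ t : ℂ, Milnor (fun x => f x - t * (f x - g x)) μ := by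
    intro t
    have h3 : Hol fun x => t * (f x - g x) := analyticAt_const.mul hsub
    have h3' : Hol fun x => f x - t * (f x - g x) := AnalyticAt.sub hf h3
    rw [milnor_iff_nu h3', ser_sub hf h3, ser_mul analyticAt_const hsub, ser_const,
      ser_sub hf hgh]
    refine (nu_congr fun d hd' => ?_).trans ((milnor_iff_nu hf μ).1 hμ)
    rw [map_sub, MvPowerSeries.coeff_C_mul, map_sub, h1 d hd', sub_self, mul_zero, sub_zero]
  have h4 := hd 2 two_pos (fun x t => f x - t * (f x - g x)) (fun t _ => ⟨?_, ?_⟩) μ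
    (fun t _ => h2 t) 0 (by simp) 1 (by simp)
  · have h5 := h2 1
    simp only [one_mul, sub_sub_cancel, zero_mul, sub_zero] at h4 h5
    exact ⟨h5, h4⟩
  · exact (AnalyticAt.comp_of_eq hf analyticAt_fst rfl).sub (analyticAt_snd.mul
      (AnalyticAt.comp_of_eq hsub analyticAt_fst rfl))
  · have e : g 0 = 0 := fz_zero hs0 _
    simp [h0, e]

theorem continuous_coeff {T : Type*} [TopologicalSpace T] (d : Fin n →₀ ℕ) :
    ∀ f : T → (Fin n → ℂ) → ℂ, (∀ t, Hol (f t)) →
      (∀ k ≤ Finsupp.degree d, ∀ m, Continuous fun t => iteratedFDeriv ℂ k (f t) 0 m) →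
        Continuous fun t => (ser (f t)).coeff d := by
  induction h : Finsupp.degree d generalizing d with
  | zero =>
    intro f hf hc
    rw [(Finsupp.degree_eq_zero_iff d).1 h]
    refine (hc 0 le_rfl fun _ => 0).congr fun t => ?_
    rw [MvPowerSeries.coeff_zero_eq_constantCoeff_apply, constantCoeff_ser (hf t),
      iteratedFDeriv_zero_apply]
  | succ N ih =>
    intro f hf hc
    have hne : d ≠ 0 := fun e => by simp [e] at h
    obtain ⟨i, hi⟩ := Finsupp.ne_iff.1 hne
    obtain ⟨e, rfl⟩ : ∃ e, d = e + Finsupp.single i 1 :=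
      ⟨d - Finsupp.single i 1, (tsub_add_cancel_of_le
        (Finsupp.single_le_iff.2 (Nat.one_le_iff_ne_zero.2 hi))).symm⟩
    rw [map_add, Finsupp.degree_single] at h
    have h1 := ih e (by omega) (fun t => pd i (f t)) (fun t => hol_pd (hf t) i) fun k hk m => by
      refine (hc (k + 1) (by omega) (Fin.snoc m (Pi.single i 1))).congr fun t => ?_
      have h2 := ContinuousLinearMap.iteratedFDeriv_comp_left
        (ContinuousLinearMap.apply ℂ ℂ (Pi.single i 1 : Fin n → ℂ))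
        (f := fderiv ℂ (f t)) (x := 0) (n := k) (AnalyticAt.fderiv (hf t)).contDiffAt le_rfl
      rw [iteratedFDeriv_succ_apply_right, Fin.init_snoc, Fin.snoc_last]
      exact (congrArg (fun A => A m) h2).symm
    have h3 : ((e i : ℂ) + 1) ≠ 0 := by exact_mod_cast (e i).succ_ne_zero
    refine (h1.div_const ((e i : ℂ) + 1)).congr fun t => ?_
    rw [ser_pd (hf t), MvPowerSeries.coeff_pderiv, mul_div_cancel_right₀ _ h3]

/-- Families with continuous Taylor coefficients over a connected space. -/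
theorem rel_of_continuous (hr : Equivalence r) (hd : DiscRel r) {T : Type*} [TopologicalSpace T]
    [PreconnectedSpace T] {f : T → (Fin n → ℂ) → ℂ} (hf : ∀ t, Hol (f t)) (h0 : ∀ t, f t 0 = 0)
    {μ : ℕ} (hμ : ∀ t, Milnor (f t) μ)
    (hc : ∀ k ≤ μ + 1, ∀ m, Continuous fun t => iteratedFDeriv ℂ k (f t) 0 m) (a b : T) :
    r (f a) (f b) := by
  classical
  obtain ⟨s, hs⟩ : ∃ s : Finset (Fin n →₀ ℕ), ∀ d, d ∈ s ↔ d ≠ 0 ∧ Finsupp.degree d < μ + 1 + 1 :=
    ⟨(Finsupp.finite_of_degree_lt (μ + 1 + 1)).toFinset.erase 0, fun d => by simp⟩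
  have hs0 : 0 ∉ s := fun h => ((hs 0).1 h).1 rfl
  have hz : Continuous fun t (k : s) => (ser (f t)).coeff k.1 :=
    continuous_pi fun k => continuous_coeff k.1 f hf fun j hj =>
      hc j (hj.trans (Nat.lt_succ_iff.1 ((hs k.1).1 k.2).2))
  have hj := fun t => rel_jet hd hs (hf t) (h0 t) (hμ t)
  refine isPreconnected_univ.induction₂' (fun a b => r (f a) (f b)) (fun t _ => ?_)
    (fun _ _ _ _ _ _ h1 h2 => hr.trans h1 h2) (mem_univ a) (mem_univ b)
  refine eventually_nhdsWithin_of_eventually_nhds ?_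
  filter_upwards [hz.continuousAt.eventually (eventually_fz hr hd hs0 (hj t).1)] with u hu
  have h1 := hr.trans (hr.trans (hj u).2 (hu (hj u).1)) (hr.symm (hj t).2)
  exact ⟨hr.symm h1, h1⟩

end

end Vale.Agent.N298
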