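import Vale.Agent.P298L47.Br
import Vale.Agent.P298.Main.Glob
import Vale.Agent.N298.Defs
import Vale.Agent.N298.Germ
import Vale.Agent.N298.Jet

/-!
# P298: from the local theorem to global triviality and to continuous families
-/

namespace Vale.Agent.N298

open Filter Topology Set Metric Vale.Agent.P298 Vale.Agent.P298L47 Vale.Agent.P298.Main

variable {n : ℕ}

theorem rightEquiv_of {f g : (Fin n → ℂ) → ℂ} (h : TopRightEquiv f g) : RightEquiv f g := by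
  obtain ⟨φ, h0, h1, h2⟩ := h
  intro N hN
  set A : Set (Fin n → ℂ) := (φ.source ∩ φ ⁻¹' interior N) ∩ interior N with hA
  have hAo : IsOpen A := (φ.isOpen_inter_preimage isOpen_interior).inter isOpen_interior
  have hAs : A ⊆ φ.source := fun p hp => hp.1.1
  have hN0 : (0 : Fin n → ℂ) ∈ interior N := mem_interior_iff_mem_nhds.2 hN
  have hA0 : (0 : Fin n → ℂ) ∈ A := ⟨⟨h0, by rwa [mem_preimage, h1]⟩, hN0⟩
  have key : ∀ x : A, g (φ.homeomorphOfImageSubsetSource hAs rfl x).1 = f x.1 :=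
    fun x => h2 x (hAs x.2)
  refine ⟨A, φ '' A, hAo, φ.isOpen_image_of_subset_source hAo hAs, ?_,
    φ.homeomorphOfImageSubsetSource hAs rfl, hA0, h1, key, ?_⟩
  · rintro x (hx | ⟨y, hy, rfl⟩)
    · exact interior_subset hx.2
    · exact interior_subset hy.1.2
  · ext y
    constructor
    · rintro ⟨x, hx, rfl⟩
      exact (key x).trans hx
    · intro hy
      obtain ⟨x, rfl⟩ := (φ.homeomorphOfImageSubsetSource hAs rfl).surjective y
      exact ⟨x, (key x).symm.trans hy, rfl⟩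

variable {Ω : Set ℂ} {W : Set ((Fin n → ℂ) × ℂ)} {F : (Fin n → ℂ) × ℂ → ℂ}

theorem MuConstantOn.an2 (h : MuConstantOn Ω W F) {t : ℂ} (ht : t ∈ Ω) : AnalyticAt ℂ F (0, t) :=
  P281.MF.analyticAt_of_differentiableOn h.isOpen h.hol (h.axis ⟨rfl, ht⟩)

theorem MuConstantOn.an (h : MuConstantOn Ω W F) {t : ℂ} (ht : t ∈ Ω) :
    AnalyticAt ℂ (fun x => F (x, t)) 0 :=
  AnalyticAt.comp_of_eq (g := F) (f := fun x : Fin n → ℂ => (x, t)) (h.an2 ht)
    (analyticAt_id.prod analyticAt_const) rfl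

theorem MuConstantOn.exists_mu (h : MuConstantOn Ω W F) {a : ℂ} (ha : a ∈ Ω) :
    ∃ μ : ℕ, ∀ t ∈ Ω, Milnor (fun x => F (x, t)) μ := by
  obtain ⟨d, hd⟩ := Cardinal.lt_aleph0.1 ((finite_iff (h.an ha)).1 (h.crit a ha).2)
  exact ⟨d, fun t ht => (milnor_iff (h.an ht) d).2 ((h.mu t ht a ha).trans hd)⟩

section three

variable {W : Set ((Fin 3 → ℂ) × ℂ)} {F : (Fin 3 → ℂ) × ℂ → ℂ}

theorem exists_chart (hfull : FullStmt) (hΩ : IsOpen Ω) (h : MuConstantOn Ω W F) {a : ℂ}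
    (ha : a ∈ Ω) : ∃ C ∈ 𝓝 a, Chart F C := by
  obtain ⟨μ, hμ⟩ := h.exists_mu ha
  obtain ⟨ρ, hρ, hsub⟩ := Metric.isOpen_iff.1 hΩ a ha
  have hmem : ∀ s ∈ ball (0 : ℂ) ρ, a + s ∈ Ω := fun s hs =>
    hsub (by simpa [mem_ball, dist_eq_norm] using hs)
  obtain ⟨δ, hδ, -, Φ, h1, h2, h3⟩ := hfull ρ hρ (fun x s => F (x, a + s)) (fun s hs =>
    ⟨AnalyticAt.comp (g := F) (f := fun p : (Fin 3 → ℂ) × ℂ => (p.1, a + p.2))
      (h.an2 (hmem s hs)) (analyticAt_fst.prod (analyticAt_const.add analyticAt_snd)),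
      h.zero _ (hmem s hs)⟩) μ fun s hs => hμ _ (hmem s hs)
  refine ⟨ball a δ, ball_mem_nhds a hδ, fun x => F (x, a + 0), _, _, fun c hc =>
    ((isoAt_of_homeo (F := fun p => F (p.1, a + 0)) (G := fun p => F (p.1, a + p.2)) Φ
      (fun p hp => h2 _ (h1 p hp)) h3 (b := c - a)
      (h2 _ (by simpa [mem_ball, dist_eq_norm] using hc)).1).pull (u := fun c => c - a)
      (Eventually.of_forall fun _ => by fun_prop)).congr EventuallyEq.rfl
      (Eventually.of_forall fun p => ?_) EventuallyEq.rfl EventuallyEq.rfl⟩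
  simp only [pb, add_sub_cancel]

theorem trivialOn (hfull : FullStmt) (hΩ : IsOpen Ω) [ContractibleSpace Ω]
    (h : MuConstantOn Ω W F) {a : ℂ} (ha : a ∈ Ω) : TrivialOn Ω a W F := by
  obtain ⟨φ, ψ, h1⟩ := iso_of_contractible hΩ (fun t ht => exists_chart hfull hΩ h ht) ha
  have hc : Continuous fun p : (Fin 3 → ℂ) × ℂ => (p.1, a) := by fun_prop
  obtain ⟨U, V, hU, hV, h2, h3, Φ, h4⟩ := exists_homeomorph
    (N := (W ∩ univ ×ˢ Ω) ∩ (fun p : (Fin 3 → ℂ) × ℂ => (p.1, a)) ⁻¹' W)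
    ((h.isOpen.inter (isOpen_univ.prod hΩ)).inter (h.isOpen.preimage hc))
    (fun p hp => ⟨⟨h.axis hp, mem_univ _, hp.2⟩, h.axis ⟨hp.1, ha⟩⟩) h1
  exact ⟨U, V, hU, hV, h2, h3.trans inter_subset_left, Φ, fun p =>
    ⟨(h4 p).1, (h4 p).2.1, (h3 (Or.inl p.2)).2, (h4 p).2.2⟩⟩

theorem equivalence : Equivalence (TopRightEquiv (n := n)) :=
  ⟨fun _ => ⟨OpenPartialHomeomorph.refl _, mem_univ _, rfl, fun _ _ => rfl⟩,
    TopRightEquiv.symm, TopRightEquiv.trans⟩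

theorem discRel (hfull : FullStmt) : DiscRel (TopRightEquiv (n := 3)) :=
  fun _ _ _ hF _ hμ => topRightEquiv_of_full hfull hF hμ

theorem rightEquiv_disc (hfull : FullStmt) {r : ℝ} (hr : 0 < r)
    (h : MuConstantOn (ball 0 r) W F) {t : ℂ} (ht : t ∈ ball (0 : ℂ) r) :
    RightEquiv (fun x => F (x, 0)) fun x => F (x, t) := by
  obtain ⟨μ, hμ⟩ := h.exists_mu ht
  exact rightEquiv_of (discRel hfull r hr (fun x s => F (x, s))
    (fun s hs => ⟨h.an2 hs, h.zero s hs⟩) μ hμ 0 (mem_ball_self hr) t ht)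

theorem rightEquiv_family (hfull : FullStmt) {T : Type*} [TopologicalSpace T]
    [PreconnectedSpace T] {f : T → (Fin 3 → ℂ) → ℂ} {μ : ℕ}
    (h : ∀ t, f t ∈ HolAt (Fin 3 → ℂ) ∧ f t 0 = 0 ∧ milnor (f t) = μ)
    (hc : ∀ k ≤ μ + 1, Continuous fun t => iteratedFDeriv ℂ k (f t) 0) (s t : T) :
    RightEquiv (f s) (f t) :=
  rightEquiv_of (rel_of_continuous equivalence (discRel hfull) (fun t => mem_holAt.1 (h t).1)
    (fun t => (h t).2.1) (fun t => (milnor_iff (mem_holAt.1 (h t).1) μ).2 (h t).2.2)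
    (fun k hk m => (continuous_eval_const m).comp (hc k hk)) s t)

end three

end Vale.Agent.N298
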